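import Vale.Agent.P219.Main
import Vale.Agent.P219.UMain
import Vale.Agent.P219.Stmt

open scoped Manifold ContDiff
open MeasureTheory Vale.Agent.P255 Vale.Agent.P234 Vale.Agent.P219

theorem Vale.Agent.Results.P219.HighDim.result (E : Type) [NormedAddCommGroup E]
    [NormedSpace ℝ E] [FiniteDimensional ℝ E] (M : Type) [MetricSpace M] [CompleteSpace M]
    [SimplyConnectedSpace M] [ChartedSpace E M] [IsManifold 𝓘(ℝ, E) ∞ M] [MeasurableSpace M]
    [BorelSpace M] (g : RMetric E M) (hd : IsGeodesicDist g) (n : ℕ)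
    (hn : Module.finrank ℝ E = n) (h4 : 4 ≤ n) (κ : ℝ) (hκ : κ ≤ 0)
    (hK : SecLE (E := E) g.inner κ) (Ω : Set M) (hΩ : SmoothBdry E Ω)
    (hb : Bornology.IsBounded Ω) :
    (μHE[n] : Measure M) Ω ≠ ⊤ ∧
    ENNReal.ofReal (prof n √(-κ) ((μHE[n] : Measure M) Ω).toReal) ≤
      (μHE[n - 1] : Measure M) (frontier Ω) ∧
    (Ω.Nonempty → (μHE[n - 1] : Measure M) (frontier Ω) =
      ENNReal.ofReal (prof n √(-κ) ((μHE[n] : Measure M) Ω).toReal) →
      ModelBall (E := E) n √(-κ) g.inner Ω) :=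
  final_pf core_all prof_pf E M g hd n hn h4 κ hκ hK Ω hΩ hb
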